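import Vale.Agent.P371.MathlibUsed

/-!
Definitions for the one-dimensional Lieb-Thirring constants `L_γ(m)` of matrix potentials.
-/

namespace Vale.Agent.P371.LT

open MeasureTheory
open scoped ENNReal ComplexOrder

/-- Integral of a complex function over the real line (Lebesgue measure). -/
noncomputable def cint (u : ℝ → ℂ) : ℂ := ∫ x, u x

/-- The inner product of `ℂ^m`. -/
def ip {m : ℕ} (u v : Fin m → ℂ) : ℂ := ∑ i, star (u i) * v i

/-- `u` is in `H^1(ℝ)` (continuous representative) and `u'` is its weak derivative. -/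
def H1 (u u' : ℝ → ℂ) : Prop :=
  MemLp u 2 volume ∧ MemLp u' 2 volume ∧ ∀ a b : ℝ, u b - u a = ∫ x in a..b, u' x

/-- `f` is in `H^1(ℝ; ℂ^m)` and `f'` is its weak derivative. -/
def VH1 {m : ℕ} (f f' : ℝ → Fin m → ℂ) : Prop :=
  ∀ i, H1 (fun x => f x i) (fun x => f' x i)

/-- `trPow p M = tr (M ^ p)` for a Hermitian matrix `M` : the sum of the `p`-th powers of
its eigenvalues. -/
noncomputable def trPow {m : ℕ} (p : ℝ) (M : Matrix (Fin m) (Fin m) ℂ) : ℝ :=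
  open Classical in if h : M.IsHermitian then ∑ i, (h.eigenvalues i) ^ p else 0

/-- Matrix potentials : measurable, positive semidefinite, with `∫ tr W^p < ∞`. -/
structure Potential {m : ℕ} (p : ℝ) (W : ℝ → Matrix (Fin m) (Fin m) ℂ) : Prop where
  measurable : ∀ i j, Measurable fun x => W x i j
  posSemidef : ∀ x, (W x).PosSemidef
  integrable : Integrable (fun x => trPow p (W x)) volume

/-- `f`, with weak derivative `f'`, is in the form domain `H^1` and satisfies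
`h_W(g, f) = lam ⟨g, f⟩` for every `g` in the form domain, where
`h_W(g, f) = ∫ ⟨g', f'⟩ - ∫ ⟨g, W f⟩` is the form of `H_W = -d²/dx² - W`. -/
def Eigen {m : ℕ} (W : ℝ → Matrix (Fin m) (Fin m) ℂ) (lam : ℝ) (f f' : ℝ → Fin m → ℂ) : Prop :=
  VH1 f f' ∧ ∀ g g' : ℝ → Fin m → ℂ, VH1 g g' →
    cint (fun x => ip (g' x) (f' x)) - cint (fun x => ip (g x) ((W x).mulVec (f x)))
      = lam * cint (fun x => ip (g x) (f x))

/-- `∑_j |λ_j|^γ` over the negative eigenvalues of `H_W` counted with multiplicity, written as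
the supremum over all finite orthonormal systems of eigenfunctions with negative eigenvalues. -/
noncomputable def rieszMean {m : ℕ} (γ : ℝ) (W : ℝ → Matrix (Fin m) (Fin m) ℂ) : ℝ≥0∞ :=
  ⨆ (N : ℕ) (lam : Fin N → ℝ) (f : Fin N → ℝ → Fin m → ℂ) (f' : Fin N → ℝ → Fin m → ℂ)
    (_ : ∀ j, lam j < 0 ∧ Eigen W (lam j) (f j) (f' j))
    (_ : ∀ i j, cint (fun x => ip (f i x) (f j x)) = if i = j then 1 else 0),
    ∑ j, ENNReal.ofReal (|lam j| ^ γ)

/-- `|λ_1|^γ` for the lowest negative eigenvalue `λ_1` of `H_W` (and `0` if there is none). -/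
noncomputable def groundMean {m : ℕ} (γ : ℝ) (W : ℝ → Matrix (Fin m) (Fin m) ℂ) : ℝ≥0∞ :=
  ⨆ (lam : ℝ) (f : ℝ → Fin m → ℂ) (f' : ℝ → Fin m → ℂ)
    (_ : lam < 0 ∧ Eigen W lam f f' ∧ f ≠ 0), ENNReal.ofReal (|lam| ^ γ)

/-- `∫ tr W^p` -/
noncomputable def intTr {m : ℕ} (p : ℝ) (W : ℝ → Matrix (Fin m) (Fin m) ℂ) : ℝ :=
  ∫ x, trPow p (W x)

/-- The Lieb-Thirring constant `L_γ(m)`. -/
noncomputable def LTconst (γ : ℝ) (m : ℕ) : ℝ≥0∞ :=
  ⨆ (W : ℝ → Matrix (Fin m) (Fin m) ℂ) (_ : Potential (γ + 1 / 2) W) (_ : intTr (γ + 1 / 2) W ≠ 0),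
    rieszMean γ W / ENNReal.ofReal (intTr (γ + 1 / 2) W)

/-- The one-bound-state constant `L^{(1)}_γ`. -/
noncomputable def LTone (γ : ℝ) : ℝ≥0∞ :=
  ⨆ (W : ℝ → Matrix (Fin 1) (Fin 1) ℂ) (_ : Potential (γ + 1 / 2) W) (_ : intTr (γ + 1 / 2) W ≠ 0),
    groundMean γ W / ENNReal.ofReal (intTr (γ + 1 / 2) W)

/-- The semiclassical constant `L^{cl}_γ`. -/
noncomputable def Lcl (γ : ℝ) : ℝ :=
  Real.Gamma (γ + 1) / (2 * Real.sqrt Real.pi * Real.Gamma (γ + 3 / 2))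

end Vale.Agent.P371.LT
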